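import Vale.Agent.Lib.P174.Cover

/-!
# The covering principle for systems of equations over groups
-/

namespace Vale.Agent.Results.P174.Covering

open Vale.Agent.P174

universe u v

/-- **Result.** Let `w_1, …, w_m` be a system of equations over a group `G` (no condition on the
exponent sums), and let `ρ : G * F_n → Q` be a homomorphism with `ρ(w_i) = 1` for all `i`
(a solution of the system modulo `N = G ∩ ker ρ`). Let `D : G * F_n → F[Q]^n` be the Fox
derivation over `ρ`, i.e. `D(uv) = D(u) + ρ(u) D(v)`, `D(g) = 0` for `g ∈ G`, `D(x_i) = e_i`.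
If the rows `D(w_1), …, D(w_m)` of the Fox Jacobian are left linearly independent over the group
algebra `F[Q]` of `Q` over some field `F`, and if all finite systems over `N` that are nonsingular
over `F` are solvable over `N`, then the system is solvable over `G`. -/
theorem result (F : Type) [Field F] (G : Type u) (Q : Type v) [Group G] [Group Q] (m n : ℕ)
    (w : Fin m → Monoid.Coprod G (FreeGroup (Fin n)))
    (ρ : Monoid.Coprod G (FreeGroup (Fin n)) →* Q) (hρ : ∀ i, ρ (w i) = 1)
    (D : Monoid.Coprod G (FreeGroup (Fin n)) → Fin n → MonoidAlgebra F Q)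
    (hmul : ∀ u v j, D (u * v) j = D u j + MonoidAlgebra.of F Q (ρ u) * D v j)
    (hcoef : ∀ g j, D (Monoid.Coprod.inl g) j = 0)
    (hvar : ∀ i j, D (Monoid.Coprod.inr (FreeGroup.of i)) j = if i = j then 1 else 0)
    (hind : LinearIndependent (MonoidAlgebra F Q) (fun i => D (w i)))
    (hN : SystemsSolvable F (ρ.comp Monoid.Coprod.inl).ker) :
    SolvableOver w :=
  solvable_of_cover F w ρ hρ D hmul hcoef hvar hind hN

end Vale.Agent.Results.P174.Covering
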