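import Vale.Agent.Lib.P174.Closure

/-!
# Howie's conjecture: localisation at the finitely generated non-indicable subgroups, and
closure under extensions with locally indicable quotient
-/

namespace Vale.Agent.Results.P174.LocalToGlobal

open Vale.Agent.P174

universe u

/-- Howie's conjecture holds for `G`: every finite nonsingular system of equations over `G`
(rank of the exponent-sum matrix over `ℚ` equal to the number of equations) is solvable over `G`. -/
def HowieHolds (G : Type u) [Group G] : Prop :=
  ∀ (m n : ℕ) (w : Fin m → Monoid.Coprod G (FreeGroup (Fin n))),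
    ((exponentMatrix w).map (Int.cast : ℤ → ℚ)).rank = m → SolvableOver w

/-- `G` maps onto `ℤ`. -/
def MapsOntoInt (G : Type u) [Group G] : Prop :=
  ∃ f : G →* Multiplicative ℤ, Function.Surjective f

lemma exists_rat_hom {K : Type u} [Group K] (h : MapsOntoInt K) :
    ∃ f : K →* Multiplicative ℚ, f ≠ 1 := by
  obtain ⟨f, hf⟩ := h
  refine ⟨(AddMonoidHom.toMultiplicative (Int.castAddHom ℚ)).comp f, fun h1 => ?_⟩
  obtain ⟨x, hx⟩ := hf (Multiplicative.ofAdd 1)
  have h2 := DFunLike.congr_fun h1 x
  simp only [MonoidHom.comp_apply, hx, MonoidHom.one_apply] at h2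
  have h3 := congrArg Multiplicative.toAdd h2
  simp at h3

/-- **Result.** (1) Howie's conjecture holds for a group `G` if and only if it holds for every
finitely generated subgroup of `G` that does not map onto `ℤ`. (2) If `N` is a normal subgroup of
`G`, Howie's conjecture holds for `N`, and every nontrivial finitely generated subgroup of `G ⧸ N`
maps onto `ℤ`, then Howie's conjecture holds for `G`. -/
theorem result :
    (∀ (G : Type u) [Group G],
      HowieHolds G ↔ ∀ K : Subgroup G, K.FG → ¬ MapsOntoInt K → HowieHolds K) ∧
    (∀ (G : Type u) [Group G] (N : Subgroup G) [N.Normal], HowieHolds N →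
      (∀ L : Subgroup (G ⧸ N), L.FG → L ≠ ⊥ → MapsOntoInt L) → HowieHolds G) := by
  refine ⟨fun G _ => ⟨fun h K _ _ => ?_, fun h => ?_⟩, fun G _ N _ hN hQ => ?_⟩
  · exact systemsSolvable_of_injective (F := ℚ) K.subtype K.subtype_injective h
  · refine systemsSolvable_of_local ℚ G fun K hK => ?_
    by_cases hm : MapsOntoInt K
    · exact Or.inr (exists_rat_hom hm)
    · exact Or.inl (h K hK hm)
  · exact systemsSolvable_extension ℚ G N hN fun L hL hL' => exists_rat_hom (hQ L hL hL')

end Vale.Agent.Results.P174.LocalToGlobal
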