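import Vale.Agent.Lib.P174.Closure

/-!
# Systems nonsingular over an arbitrary field (for example mod `p`): localisation and closure
under extensions
-/

namespace Vale.Agent.Results.P174.ModP

open Vale.Agent.P174

universe u

/-- **Result.** Let `F` be any field (for example `ℚ` or `ZMod p`). (1) All finite systems over
`G` that are nonsingular over `F` are solvable over `G` if and only if the same is true for every
finitely generated subgroup of `G` that has no nontrivial homomorphism to the additive group of
`F`. (2) If this is true for a normal subgroup `N` of `G` and every nontrivial finitely generated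
subgroup of `G ⧸ N` has a nontrivial homomorphism to the additive group of `F`, then it is true
for `G`. -/
theorem result :
    (∀ (F : Type) [Field F] (G : Type u) [Group G],
      SystemsSolvable F G ↔
        ∀ K : Subgroup G, K.FG → (¬ ∃ f : K →* Multiplicative F, f ≠ 1) → SystemsSolvable F K) ∧
    (∀ (F : Type) [Field F] (G : Type u) [Group G] (N : Subgroup G) [N.Normal],
      SystemsSolvable F N →
      (∀ L : Subgroup (G ⧸ N), L.FG → L ≠ ⊥ → ∃ f : L →* Multiplicative F, f ≠ 1) →
      SystemsSolvable F G) :=
  ⟨fun F _ G _ => systemsSolvable_iff_local F G,
    fun F _ G _ N _ hN hQ => systemsSolvable_extension F G N hN hQ⟩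

end Vale.Agent.Results.P174.ModP
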