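import Vale.Agent.Lib.P174.Closure
import Vale.Agent.Lib.P174.Cover

set_option autoImplicit false

/-! # P174: reduction theorems for Howie's conjecture -/

namespace Vale.Agent.Results.P174.ReductionTheorems

universe u v

/-- The free product `G * F_n`. -/
abbrev GF (G : Type u) [Group G] (n : ℕ) : Type u := Monoid.Coprod G (FreeGroup (Fin n))

/-- The homomorphism `G * F_n → ℤ` that kills `G` and the unknowns `x_k`, `k ≠ j`, and sends `x_j`
to `1`: the sum of the exponents of `x_j`. -/
noncomputable def expSum {G : Type u} [Group G] {n : ℕ} (j : Fin n) :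
    GF G n →* Multiplicative ℤ :=
  Monoid.Coprod.lift 1 (FreeGroup.lift fun k => Multiplicative.ofAdd (if k = j then 1 else 0))

/-- The system `w_1, …, w_m` is nonsingular over the field `F`: the rows of its exponent-sum
matrix are linearly independent over `F`.  For `F = ℚ` this is nonsingularity. -/
def Nonsingular (F : Type) [Field F] {G : Type u} [Group G] {m n : ℕ} (w : Fin m → GF G n) :
    Prop :=
  LinearIndependent F
    (fun (i : Fin m) (j : Fin n) => ((Multiplicative.toAdd (expSum j (w i)) : ℤ) : F))

/-- The system is solvable over `G`: the canonical homomorphism from `G` to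
`(G * F_n) / ⟨⟨w_1, …, w_m⟩⟩` is injective. -/
def Solvable {G : Type u} [Group G] {m n : ℕ} (w : Fin m → GF G n) : Prop :=
  Function.Injective fun g : G =>
    ((Monoid.Coprod.inl g : GF G n) : GF G n ⧸ Subgroup.normalClosure (Set.range w))

/-- Every finite system over `G` that is nonsingular over `F` is solvable over `G`.  For `F = ℚ`
this is Howie's conjecture for the group `G`. -/
def Howie (F : Type) [Field F] (G : Type u) [Group G] : Prop :=
  ∀ (m n : ℕ) (w : Fin m → GF G n), Nonsingular F w → Solvable w

/-- `K` maps onto `ℤ`. -/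
def MapsOntoInt (K : Type u) [Group K] : Prop :=
  ∃ f : K →* Multiplicative ℤ, Function.Surjective f

/-- `K` has a nontrivial homomorphism to the additive group of `F`. -/
def HasHomTo (F : Type) [Field F] (K : Type u) [Group K] : Prop :=
  ∃ f : K →* Multiplicative F, f ≠ 1

/-- Every nontrivial finitely generated subgroup of `Q` maps onto `ℤ`. -/
def LocallyIndicable (Q : Type u) [Group Q] : Prop :=
  ∀ L : Subgroup Q, L.FG → L ≠ ⊥ → MapsOntoInt L

/-- Every nontrivial finitely generated subgroup of `Q` has a nontrivial homomorphism to the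
additive group of `F` (for `F = ZMod p`: locally `p`-indicable). -/
def LocallyIndicableOver (F : Type) [Field F] (Q : Type u) [Group Q] : Prop :=
  ∀ L : Subgroup Q, L.FG → L ≠ ⊥ → HasHomTo F L

/-- `D j x`, `j = 1, …, n`, are the Fox derivatives of `x ∈ G * F_n` over the homomorphism `ρ`,
with values in the group algebra `F[Q]`: `D(xy) = D(x) + ρ(x) D(y)`, `D(g) = 0` for `g ∈ G` and
`D_j(x_k) = 1` if `j = k` and `0` otherwise. -/
def IsFox {F : Type} [Field F] {G : Type u} {Q : Type v} [Group G] [Group Q] {n : ℕ}
    (ρ : GF G n →* Q) (D : Fin n → GF G n → MonoidAlgebra F Q) : Prop :=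
  (∀ j x y, D j (x * y) = D j x + MonoidAlgebra.of F Q (ρ x) * D j y) ∧
  (∀ j (g : G), D j (Monoid.Coprod.inl g) = 0) ∧
  (∀ j k, D j (Monoid.Coprod.inr (FreeGroup.of k)) = if j = k then 1 else 0)

/-- The covering criterion for the group `G` and homomorphisms to `Q`: if `ρ : G * F_n → Q` kills
every `w_i` (the system is solved modulo `N = G ∩ ker ρ`), the rows of Fox derivatives of the
`w_i` are left linearly independent over `F[Q]`, and all finite systems over `N` nonsingular over
`F` are solvable, then the system is solvable over `G`. -/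
def CoveringCriterion (F : Type) [Field F] (G : Type u) (Q : Type v) [Group G] [Group Q] : Prop :=
  ∀ (m n : ℕ) (w : Fin m → GF G n) (ρ : GF G n →* Q) (D : Fin n → GF G n → MonoidAlgebra F Q),
    (∀ i, ρ (w i) = 1) → IsFox ρ D →
    LinearIndependent (MonoidAlgebra F Q) (fun (i : Fin m) (j : Fin n) => D j (w i)) →
    Howie F (ρ.comp Monoid.Coprod.inl).ker → Solvable w

section bridge

variable {G : Type u} [Group G] {m n : ℕ}

theorem solvable_iff (w : Fin m → GF G n) : Solvable w ↔ P174.SolvableOver w := by
  constructor
  · intro h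
    refine ⟨GF G n ⧸ Subgroup.normalClosure (Set.range w), inferInstance,
      (QuotientGroup.mk' _).comp Monoid.Coprod.inl,
      fun j => QuotientGroup.mk' _ (Monoid.Coprod.inr (FreeGroup.of j)), h, fun i => ?_⟩
    have e : Monoid.Coprod.lift
        ((QuotientGroup.mk' (Subgroup.normalClosure (Set.range w))).comp
          (Monoid.Coprod.inl : G →* GF G n))
        (FreeGroup.lift fun j => QuotientGroup.mk' (Subgroup.normalClosure (Set.range w))
          (Monoid.Coprod.inr (FreeGroup.of j) : GF G n))
        = QuotientGroup.mk' (Subgroup.normalClosure (Set.range w)) := by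
      apply Monoid.Coprod.hom_ext
      · ext g
        simp
      · ext j
        simp
    rw [e]
    exact (QuotientGroup.eq_one_iff _).2 (Subgroup.subset_normalClosure ⟨i, rfl⟩)
  · rintro ⟨H, _, φ, h, hφ, hw⟩ g g' hgg
    have hle : Subgroup.normalClosure (Set.range w) ≤
        (Monoid.Coprod.lift φ (FreeGroup.lift h)).ker := by
      apply Subgroup.normalClosure_le_normal
      rintro _ ⟨i, rfl⟩
      exact hw i
    have h1 : (Monoid.Coprod.inl g : GF G n)⁻¹ * Monoid.Coprod.inl g' ∈
        Subgroup.normalClosure (Set.range w) := QuotientGroup.eq.1 hgg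
    have h2 := hle h1
    rw [MonoidHom.mem_ker, map_mul, map_inv, Monoid.Coprod.lift_apply_inl,
      Monoid.Coprod.lift_apply_inl] at h2
    exact hφ (inv_mul_eq_one.1 h2)

theorem entry_eq (x : GF G n) (j : Fin n) :
    Multiplicative.toAdd (expSum j x) = Multiplicative.toAdd (P174.exponentSum G n x) j := by
  have e : (AddMonoidHom.toMultiplicative (Pi.evalAddMonoidHom (fun _ : Fin n => ℤ) j)).comp
      (P174.exponentSum G n) = expSum j := by
    apply Monoid.Coprod.hom_ext
    · ext g
      simp [P174.exponentSum, expSum]
    · ext k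
      simp only [P174.exponentSum, expSum, MonoidHom.comp_apply, Monoid.Coprod.lift_apply_inr,
        FreeGroup.lift_apply_of]
      show (Pi.single k (1 : ℤ) : Fin n → ℤ) j = if k = j then 1 else 0
      rw [Pi.single_apply]
      by_cases hjk : j = k
      · rw [if_pos hjk, if_pos hjk.symm]
      · rw [if_neg hjk, if_neg (fun h => hjk h.symm)]
  rw [← e]
  rfl

theorem nonsingular_iff (F : Type) [Field F] (w : Fin m → GF G n) :
    Nonsingular F w ↔ P174.NonsingularOver F w := by
  have e : (fun (i : Fin m) (j : Fin n) => ((Multiplicative.toAdd (expSum j (w i)) : ℤ) : F))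
      = ((P174.exponentMatrix w).map (Int.cast : ℤ → F)).row := by
    funext i j
    rw [entry_eq]
    rfl
  unfold Nonsingular P174.NonsingularOver
  rw [e]
  constructor
  · intro h
    rw [h.rank_matrix, Fintype.card_fin]
  · intro h
    rw [linearIndependent_iff_card_eq_finrank_span, Set.finrank]
    rw [Matrix.rank_eq_finrank_span_row] at h
    rw [h, Fintype.card_fin]

theorem howie_iff (F : Type) [Field F] : Howie F G ↔ P174.SystemsSolvable F G := by
  unfold Howie P174.SystemsSolvable
  simp only [nonsingular_iff, solvable_iff]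

theorem exists_rat_hom {K : Type u} [Group K]
    (h : MapsOntoInt K) : ∃ f : K →* Multiplicative ℚ, f ≠ 1 := by
  obtain ⟨f, hf⟩ := h
  refine ⟨(AddMonoidHom.toMultiplicative (Int.castAddHom ℚ)).comp f, fun h1 => ?_⟩
  obtain ⟨x, hx⟩ := hf (Multiplicative.ofAdd 1)
  have h2 := DFunLike.congr_fun h1 x
  simp only [MonoidHom.comp_apply, hx, MonoidHom.one_apply] at h2
  have h3 := congrArg Multiplicative.toAdd h2
  simp at h3

end bridge

/-- **Reduction theorems for Howie's conjecture.** -/
theorem result :
    -- (1) Howie's conjecture for `G` is Howie's conjecture for the finitely generated subgroups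
    -- of `G` that do not map onto `ℤ`
    (∀ (G : Type u) [Group G], Howie ℚ G ↔
      ∀ K : Subgroup G, K.FG → ¬ MapsOntoInt K → Howie ℚ K) ∧
    -- (2) the groups satisfying Howie's conjecture are closed under extensions with locally
    -- indicable quotient
    (∀ (G : Type u) [Group G] (N : Subgroup G) [N.Normal],
      Howie ℚ N → LocallyIndicable (G ⧸ N) → Howie ℚ G) ∧
    -- (3), (4) the same over any field `F`, for example `ZMod p`, with homomorphisms to `F`
    (∀ (F : Type) [Field F] (G : Type u) [Group G], Howie F G ↔
      ∀ K : Subgroup G, K.FG → ¬ HasHomTo F K → Howie F K) ∧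
    (∀ (F : Type) [Field F] (G : Type u) [Group G] (N : Subgroup G) [N.Normal],
      Howie F N → LocallyIndicableOver F (G ⧸ N) → Howie F G) ∧
    -- (5) a solution modulo a normal subgroup `N = G ∩ ker ρ` with independent Fox Jacobian
    -- reduces the solvability of an arbitrary system to systems over `N`
    (∀ (F : Type) [Field F] (G : Type u) (Q : Type v) [Group G] [Group Q],
      CoveringCriterion F G Q) := by
  refine ⟨?_, ?_, ?_, ?_, ?_⟩
  · intro G _
    simp only [howie_iff]
    constructor
    · intro h K _ _
      exact P174.systemsSolvable_of_injective (F := ℚ) K.subtype K.subtype_injective h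
    · intro h
      refine P174.systemsSolvable_of_local ℚ G fun K hK => ?_
      by_cases hm : MapsOntoInt K
      · exact Or.inr (exists_rat_hom hm)
      · exact Or.inl (h K hK hm)
  · intro G _ N _ hN hQ
    rw [howie_iff] at hN ⊢
    exact P174.systemsSolvable_extension ℚ G N hN fun L hL hL' => exists_rat_hom (hQ L hL hL')
  · intro F _ G _
    simp only [howie_iff]
    exact P174.systemsSolvable_iff_local F G
  · intro F _ G _ N _ hN hQ
    rw [howie_iff] at hN ⊢
    exact P174.systemsSolvable_extension F G N hN hQ
  · intro F _ G Q _ _ m n w ρ D hρ ⟨hmul, hcoef, hvar⟩ hind hN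
    rw [solvable_iff]
    rw [howie_iff] at hN
    refine P174.solvable_of_cover F w ρ hρ (fun x j => D j x) (fun u v j => hmul j u v)
      (fun g j => hcoef j g) (fun i j => ?_) hind hN
    show D j (Monoid.Coprod.inr (FreeGroup.of i)) = _
    rw [hvar]
    by_cases h : i = j
    · rw [if_pos h, if_pos h.symm]
    · rw [if_neg h, if_neg (fun e => h e.symm)]

end Vale.Agent.Results.P174.ReductionTheorems
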